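import Mathlib

/-! # P047: a Bernstein inequality with a gain -/

open Polynomial Finset Real

namespace Vale.Agent.N047

theorem odd_sum (a : ℕ → ℝ) (t : ℝ) (m : ℕ) :
    ∑ i ∈ range (2 * m + 3), a i * t ^ i - ∑ i ∈ range (2 * m + 3), a i * (-t) ^ i
      = 2 * (t * ∑ j ∈ range (m + 1), a (2 * j + 1) * (t ^ 2) ^ j) := by
  induction m with
  | zero => simp [sum_range_succ]; ring
  | succ m ih =>
    have e : 2 * (m + 1) + 3 = 2 * m + 3 + 1 + 1 := by ring
    rw [e, sum_range_succ, sum_range_succ, sum_range_succ (fun i => a i * (-t) ^ i),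
      sum_range_succ (fun i => a i * (-t) ^ i), sum_range_succ _ (m + 1)]
    have h1 : (-t) ^ (2 * m + 3) = -t ^ (2 * m + 3) := Odd.neg_pow ⟨m + 1, by ring⟩ t
    have h2 : (-t) ^ (2 * m + 3 + 1) = t ^ (2 * m + 3 + 1) := Even.neg_pow ⟨m + 2, by ring⟩ t
    have h3 : 2 * (m + 1) + 1 = 2 * m + 3 := by ring
    rw [h1, h2, h3]
    linear_combination ih

theorem odd_part (P : ℝ[X]) (m : ℕ) (hP : P.natDegree ≤ 2 * m + 2) :
    ∃ R : ℝ[X], R.natDegree ≤ m ∧ R.eval 0 = P.coeff 1 ∧
      ∀ t : ℝ, 2 * (t * R.eval (t ^ 2)) = P.eval t - P.eval (-t) := by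
  refine ⟨∑ j ∈ range (m + 1), C (P.coeff (2 * j + 1)) * X ^ j, ?_, ?_, fun t => ?_⟩
  · refine natDegree_sum_le_of_forall_le _ _ fun j hj => ?_
    exact (natDegree_C_mul_X_pow_le _ _).trans (Nat.lt_succ_iff.mp (mem_range.mp hj))
  · rw [eval_finsetSum, sum_range_succ']
    simp
  · have h : P.natDegree < 2 * m + 3 := by omega
    rw [eval_eq_sum_range' h, eval_eq_sum_range' h, odd_sum, eval_finsetSum]
    simp

theorem lagr (m : ℕ) (u : ℕ → ℝ) (hu : ∀ i j, i < j → j ≤ m → u i < u j) (h0 : 0 < u 0) :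
    ∃ w : ℕ → ℝ, (∀ k, k ≤ m → 0 ≤ (-1) ^ k * w k) ∧ 1 ≤ w 0 ∧
      ∀ R : ℝ[X], R.natDegree ≤ m → R.eval 0 = ∑ k ∈ range (m + 1), R.eval (u k) * w k := by
  classical
  have hpos : ∀ j, j ≤ m → 0 < u j := by
    intro j hj
    rcases Nat.eq_zero_or_pos j with rfl | h
    · exact h0
    · exact h0.trans (hu 0 j h hj)
  refine ⟨fun k => ∏ j ∈ (range (m + 1)).erase k, ((u k - u j)⁻¹ * (0 - u j)), ?_, ?_, ?_⟩
  · intro k hk
    beta_reduce
    rw [← prod_filter_mul_prod_filter_not _ (fun j => j < k)]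
    have e : ((range (m + 1)).erase k).filter (fun j => j < k) = range k := by
      ext j
      simp only [mem_filter, mem_erase, mem_range]
      omega
    have e2 : ∏ j ∈ range k, ((u k - u j)⁻¹ * (0 - u j))
        = (-1) ^ k * ∏ j ∈ range k, ((u k - u j)⁻¹ * u j) := by
      rw [← card_range k, ← prod_const, card_range, ← prod_mul_distrib]
      exact prod_congr rfl fun j _ => by ring
    rw [e, e2, ← mul_assoc, ← mul_assoc, ← mul_pow]
    simp only [mul_neg, mul_one, neg_neg, one_pow, one_mul]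
    refine mul_nonneg (prod_nonneg fun j hj => ?_) (prod_nonneg fun j hj => ?_)
    · have h1 := mem_range.mp hj
      exact mul_nonneg (inv_nonneg.mpr (sub_nonneg.mpr (hu j k h1 hk).le))
        (hpos j (by omega)).le
    · simp only [mem_filter, mem_erase, mem_range] at hj
      have h1 : u k < u j := hu k j (by omega) (by omega)
      exact mul_nonneg_of_nonpos_of_nonpos (inv_nonpos.mpr (by linarith))
        (by linarith [hpos j (by omega)])
  · beta_reduce
    rw [← prod_const_one (s := (range (m + 1)).erase 0)]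
    refine prod_le_prod (fun _ _ => zero_le_one) fun j hj => ?_
    simp only [mem_erase, mem_range] at hj
    have h1 : u 0 < u j := hu 0 j (by omega) (by omega)
    have h2 : (u 0 - u j)⁻¹ * (0 - u j) = u j / (u j - u 0) := by
      have : u j - u 0 ≠ 0 := by linarith
      have : u 0 - u j ≠ 0 := by linarith
      field_simp
      ring
    rw [h2, le_div_iff₀ (by linarith)]
    linarith
  · intro R hR
    have hinj : Set.InjOn u (range (m + 1) : Finset ℕ) := by
      intro i hi j hj hij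
      have hi' : i ≤ m := Nat.lt_succ_iff.mp (mem_range.mp hi)
      have hj' : j ≤ m := Nat.lt_succ_iff.mp (mem_range.mp hj)
      rcases lt_trichotomy i j with h | h | h
      · exact absurd hij (hu i j h hj').ne
      · exact h
      · exact absurd hij.symm (hu j i h hi').ne
    have hdeg : R.degree < (range (m + 1)).card := by
      rw [card_range]
      exact lt_of_le_of_lt degree_le_natDegree (by exact_mod_cast Nat.lt_succ_of_le hR)
    have h := Lagrange.eq_interpolate hinj hdeg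
    conv_lhs => rw [h]
    rw [Lagrange.interpolate_apply, eval_finsetSum]
    refine sum_congr rfl fun k _ => ?_
    rw [eval_mul, eval_C, Lagrange.basis, eval_prod]
    congr 1
    refine prod_congr rfl fun j _ => ?_
    simp [Lagrange.basisDivisor]

/-- Bernstein's inequality at the origin, with a gain from the two nearest nodes. -/
theorem bern_gain (P : ℝ[X]) (m : ℕ) (hP : P.natDegree ≤ 2 * m + 2)
    (hb : ∀ t : ℝ, |t| ≤ 1 → |P.eval t| ≤ 1) {τ : ℝ} (hτ1 : τ ≤ 1)
    (hτ : P.eval (sin (π / (2 * (2 * m + 1)))) - P.eval (-sin (π / (2 * (2 * m + 1)))) ≤ 2 * τ) :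
    P.coeff 1 ≤ (2 * m + 1) - (1 - τ) / sin (π / (2 * (2 * m + 1))) := by
  set D : ℝ := 2 * m + 1 with hD
  have hD0 : 0 < D := by positivity
  set θ : ℕ → ℝ := fun k => (2 * k + 1) * (π / (2 * D)) with hθ
  have hθ0 : ∀ k, 0 < θ k := fun k => by positivity
  have hθ1 : ∀ k, k ≤ m → θ k ≤ π / 2 := by
    intro k hk
    have h1 : (2 * k + 1 : ℝ) ≤ D := by
      have : (k : ℝ) ≤ m := by exact_mod_cast hk
      linarith
    calc θ k ≤ D * (π / (2 * D)) := mul_le_mul_of_nonneg_right h1 (by positivity)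
      _ = π / 2 := by field_simp
  set s : ℕ → ℝ := fun k => sin (θ k) with hs
  have hs0 : ∀ k, k ≤ m → 0 < s k := fun k hk =>
    sin_pos_of_pos_of_lt_pi (hθ0 k) (by linarith [hθ1 k hk, pi_pos])
  have hmono : ∀ i j, i < j → j ≤ m → s i ^ 2 < s j ^ 2 := by
    intro i j hij hj
    refine pow_lt_pow_left₀ ?_ (hs0 i (by omega)).le two_ne_zero
    refine sin_lt_sin_of_lt_of_le_pi_div_two (by linarith [hθ0 i, pi_pos]) (hθ1 j hj) ?_
    have : (i : ℝ) < j := by exact_mod_cast hij
    exact mul_lt_mul_of_pos_right (by linarith) (by positivity)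
  obtain ⟨w, hw, hw0, hR⟩ := lagr m (fun k => s k ^ 2) hmono (pow_pos (hs0 0 (Nat.zero_le _)) 2)
  obtain ⟨R, hR1, hR2, hR3⟩ := odd_part P m hP
  set T : ℝ[X] := C ((-1) ^ m) * Chebyshev.T ℝ (2 * m + 1) with hT
  have hTd : T.natDegree ≤ 2 * m + 2 := by
    refine (natDegree_C_mul_le _ _).trans ?_
    rw [Chebyshev.natDegree_T]
    omega
  have hTs : ∀ x : ℝ, T.eval (sin x) = sin (D * x) := by
    intro x
    rw [hT, eval_mul, eval_C, ← cos_pi_div_two_sub x, Chebyshev.T_real_cos]
    have e : (((2 * m + 1 : ℤ)) : ℝ) * (π / 2 - x) = (π / 2 - D * x) + m * π := by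
      rw [hD]; push_cast; ring
    rw [e, cos_add_nat_mul_pi, cos_pi_div_two_sub, ← mul_assoc, ← mul_pow]
    simp
  have hT1 : T.coeff 1 = D := by
    have h1 : T.coeff 1 = (derivative T).eval 0 := by
      rw [← coeff_zero_eq_eval_zero, coeff_derivative]; simp
    rw [h1, hT, derivative_C_mul, Chebyshev.T_derivative_eq_U, eval_mul, eval_mul, eval_C,
      show (2 * (m : ℤ) + 1 - 1) = 2 * m by ring, Chebyshev.U_eval_zero_of_even _ ⟨m, by ring⟩,
      show (2 * (m : ℤ)) / 2 = m by omega]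
    simp only [Int.cast_negOnePow_natCast, eval_intCast, hD]
    push_cast
    have : ((-1 : ℝ) ^ m) * (-1) ^ m = 1 := by rw [← mul_pow]; simp
    linear_combination (2 * m + 1) * this
  obtain ⟨Q, hQ1, hQ2, hQ3⟩ := odd_part T m hTd
  have hQs : ∀ k, s k * Q.eval (s k ^ 2) = (-1) ^ k := by
    intro k
    have h1 := hQ3 (s k)
    have e : D * θ k = π / 2 + k * π := by rw [hθ]; field_simp; ring
    rw [hs] at h1
    simp only at h1
    rw [← sin_neg, hTs, hTs, mul_neg, sin_neg, e, sin_add_nat_mul_pi, sin_pi_div_two] at h1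
    rw [hs]
    linarith
  have hs00 : s 0 = sin (π / (2 * D)) := by simp [hs, hθ]
  rw [← hs00, ← hR2, hR R hR1, ← hT1, ← hQ2, hR Q hQ1, le_sub_iff_add_le, sum_range_succ',
    sum_range_succ']
  have hterm : ∀ k, k ≤ m → ∀ b : ℝ, (-1) ^ k * (s k * R.eval (s k ^ 2)) ≤ b →
      R.eval (s k ^ 2) * w k ≤ b * ((-1) ^ k * w k / s k) := by
    intro k hk b hb'
    have h1 : ((-1 : ℝ) ^ k) * (-1) ^ k = 1 := by rw [← mul_pow]; simp
    have h2 := hs0 k hk
    have e : R.eval (s k ^ 2) * w k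
        = ((-1) ^ k * (s k * R.eval (s k ^ 2))) * ((-1) ^ k * w k / s k) := by
      field_simp
      linear_combination (-(R.eval (s k ^ 2) * w k)) * h1
    rw [e]
    exact mul_le_mul_of_nonneg_right hb' (div_nonneg (hw k hk) h2.le)
  have hQt : ∀ k, k ≤ m → Q.eval (s k ^ 2) * w k = (-1) ^ k * w k / s k := by
    intro k hk
    have h2 := hs0 k hk
    rw [← hQs k]
    field_simp
  have habs : ∀ k, (-1) ^ k * (s k * R.eval (s k ^ 2)) ≤ 1 := by
    intro k
    have h1 := hR3 (s k)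
    have h2 := abs_le.mp (hb (s k) (abs_sin_le_one _))
    have h3 := abs_le.mp (hb (-s k) (by rw [abs_neg]; exact abs_sin_le_one _))
    rcases neg_one_pow_eq_or ℝ k with h | h <;> rw [h] <;> linarith
  have hsum : ∑ k ∈ range m, R.eval (s (k + 1) ^ 2) * w (k + 1)
      ≤ ∑ k ∈ range m, Q.eval (s (k + 1) ^ 2) * w (k + 1) := by
    refine sum_le_sum fun k hk => ?_
    have hk' : k + 1 ≤ m := mem_range.mp hk
    rw [hQt _ hk']
    simpa using hterm _ hk' 1 (habs _)
  have h00 := hterm 0 (Nat.zero_le _) τ (by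
    have h1 := hR3 (s 0)
    rw [← hs00] at hτ
    simp only [pow_zero, one_mul]
    linarith)
  rw [hQt 0 (Nat.zero_le _)]
  simp only [pow_zero, one_mul] at h00 ⊢
  have h5 : (1 - τ) / s 0 ≤ (1 - τ) * (w 0 / s 0) := by
    rw [div_eq_mul_one_div]
    exact mul_le_mul_of_nonneg_left
      (div_le_div_of_nonneg_right hw0 (hs0 0 (Nat.zero_le _)).le) (by linarith)
  linarith

/-- The differential inequality bounds the increment on a symmetric interval. -/
theorem logit (P : ℝ[X]) (d : ℕ) (hb : ∀ t : ℝ, |t| ≤ 1 → |P.eval t| ≤ 1)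
    (hd : ∀ t : ℝ, |t| ≤ 1 → (1 - t ^ 2) * (derivative P).eval t ≤ d * (1 - P.eval t ^ 2))
    {s E : ℝ} (hs0 : 0 ≤ s) (hs1 : s < 1) (hE : ((1 + s) / (1 - s)) ^ d ≤ E) :
    P.eval s - P.eval (-s) ≤ 2 * (1 - 2 / (E + 1)) := by
  have hq : 1 ≤ (1 + s) / (1 - s) := by rw [le_div_iff₀ (by linarith)]; linarith
  have hE1 : 1 ≤ E := (one_le_pow₀ hq).trans hE
  have key : ∀ l : ℝ, 0 ≤ l → l < 1 → l * (P.eval s - P.eval (-s)) ≤ 2 * (1 - 2 / (E + 1)) := by
    intro l hl0 hl1
    have hlt : ∀ t : ℝ, |t| ≤ 1 → 0 < 1 + l * P.eval t ∧ 0 < 1 - l * P.eval t := by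
      intro t ht
      have h1 := abs_le.mp (hb t ht)
      constructor <;> nlinarith
    set g : ℝ → ℝ := fun t => log (1 + l * P.eval t) - log (1 - l * P.eval t)
      - d * (log (1 + t) - log (1 - t)) with hg
    have hder : ∀ t ∈ Set.Icc (-s) s, HasDerivAt g
        (l * (derivative P).eval t / (1 + l * P.eval t)
          - (-(l * (derivative P).eval t)) / (1 - l * P.eval t)
          - d * (1 / (1 + t) - (-1) / (1 - t))) t := by
      intro t ht
      have ht1 : |t| ≤ 1 := abs_le.mpr ⟨by linarith [ht.1], by linarith [ht.2]⟩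
      obtain ⟨h1, h2⟩ := hlt t ht1
      have hP := (P.hasDerivAt t).const_mul l
      have a1 := (hP.const_add 1).log h1.ne'
      have a2 := (hP.const_sub 1).log h2.ne'
      have a3 := ((hasDerivAt_id t).const_add 1).log (by
        simp only [id]; linarith [ht.1])
      have a4 := ((hasDerivAt_id t).const_sub 1).log (by
        simp only [id]; linarith [ht.2])
      exact (a1.sub a2).sub ((a3.sub a4).const_mul (d : ℝ))
    have hanti : AntitoneOn g (Set.Icc (-s) s) := by
      refine antitoneOn_of_deriv_nonpos (convex_Icc _ _)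
        (fun t ht => (hder t ht).continuousAt.continuousWithinAt)
        (fun t ht => (hder t (interior_subset ht)).differentiableAt.differentiableWithinAt)
        (fun t ht => ?_)
      have ht' := interior_subset ht
      rw [(hder t ht').deriv]
      have ht1 : |t| ≤ 1 := abs_le.mpr ⟨by linarith [ht'.1], by linarith [ht'.2]⟩
      obtain ⟨h1, h2⟩ := hlt t ht1
      have h3 : 0 < 1 + t := by linarith [ht'.1]
      have h4 : 0 < 1 - t := by linarith [ht'.2]
      have h5 := hd t ht1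
      set p := P.eval t
      set q := (derivative P).eval t
      have e : l * q / (1 + l * p) - (-(l * q)) / (1 - l * p) - d * (1 / (1 + t) - (-1) / (1 - t))
          = 2 * (l * ((1 - t ^ 2) * q) - d * (1 - l ^ 2 * p ^ 2))
            / ((1 + l * p) * (1 - l * p) * (1 + t) * (1 - t)) := by
        field_simp
        ring
      rw [e]
      refine div_nonpos_of_nonpos_of_nonneg ?_ (by positivity)
      have h6 : l * ((1 - t ^ 2) * q) ≤ l * (d * (1 - p ^ 2)) := mul_le_mul_of_nonneg_left h5 hl0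
      have h7 : l * (1 - p ^ 2) ≤ 1 - l ^ 2 * p ^ 2 := by
        have : 0 ≤ (1 - l) * (l * p ^ 2) := mul_nonneg (by linarith) (by positivity)
        nlinarith
      have h8 : (d : ℝ) * (l * (1 - p ^ 2)) ≤ d * (1 - l ^ 2 * p ^ 2) :=
        mul_le_mul_of_nonneg_left h7 (Nat.cast_nonneg d)
      nlinarith
    have h1 := hanti ⟨le_rfl, by linarith⟩ ⟨by linarith, le_rfl⟩ (by linarith : -s ≤ s)
    obtain ⟨a1, a2⟩ := hlt s (abs_le.mpr ⟨by linarith, by linarith⟩)
    obtain ⟨b1, b2⟩ := hlt (-s) (abs_le.mpr ⟨by linarith, by linarith⟩)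
    set a := l * P.eval s with ha
    set b := l * P.eval (-s) with hb'
    have hL : (d : ℝ) * (log (1 + s) - log (1 - s)) ≤ log E := by
      rw [← log_div (by linarith) (by linarith), ← log_pow]
      exact log_le_log (by positivity) hE
    have h2 : log ((1 + a) * (1 - b)) ≤ log (E ^ 2 * ((1 - a) * (1 + b))) := by
      rw [log_mul a1.ne' b2.ne', log_mul (by positivity) (by positivity), log_mul a2.ne' b1.ne',
        log_pow]
      simp only [hg, sub_neg_eq_add, ← sub_eq_add_neg] at h1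
      push_cast
      linarith
    have h3 : (1 + a) * (1 - b) ≤ E ^ 2 * ((1 - a) * (1 + b)) :=
      (log_le_log_iff (by positivity) (by positivity)).mp h2
    have h4 : (1 + (a - b) / 2) ^ 2 ≤ (E * (1 - (a - b) / 2)) ^ 2 := by
      have : ((a + b) / 2) ^ 2 ≤ E ^ 2 * ((a + b) / 2) ^ 2 :=
        le_mul_of_one_le_left (sq_nonneg _) (one_le_pow₀ hE1)
      nlinarith
    have h5 : 1 + (a - b) / 2 ≤ E * (1 - (a - b) / 2) :=
      (abs_le_of_sq_le_sq' h4 (mul_nonneg (by linarith) (by linarith))).2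
    have h6 : 2 / (E + 1) ≤ 1 - (a - b) / 2 := by
      rw [div_le_iff₀ (by linarith)]
      linarith
    rw [mul_sub]
    linarith
  by_contra hc
  rw [not_le] at hc
  have hτ : 0 ≤ 2 * (1 - 2 / (E + 1)) := by
    have : 2 / (E + 1) ≤ 1 := by rw [div_le_one (by linarith)]; linarith
    linarith
  set x := P.eval s - P.eval (-s)
  set y := 2 * (1 - 2 / (E + 1))
  have hx : 0 < x := by linarith
  have h1 := key ((x + y) / (2 * x)) (by positivity) (by rw [div_lt_one (by linarith)]; linarith)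
  have h2 : (x + y) / (2 * x) * x = (x + y) / 2 := by field_simp
  linarith

theorem pow_le_thirty {s : ℝ} {d : ℕ} (hs0 : 0 ≤ s) (hs1 : s < 1)
    (h : d * s ≤ 1.7 * (1 - s ^ 2)) : ((1 + s) / (1 - s)) ^ d ≤ 30 := by
  have h1 := log_div_le_sum_range_add hs0 hs1 0
  simp only [range_zero, sum_empty, mul_zero, zero_add, pow_one] at h1
  have h2 : 0 < 1 - s ^ 2 := by nlinarith
  have hq : 0 < (1 + s) / (1 - s) := div_pos (by linarith) (by linarith)
  have h3 : (d : ℝ) * (s / (1 - s ^ 2)) ≤ 1.7 := by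
    rw [← mul_div_assoc, div_le_iff₀ h2]; exact h
  have h4 : log (((1 + s) / (1 - s)) ^ d) ≤ 3.4 := by
    rw [log_pow]
    have := mul_le_mul_of_nonneg_left h1 (Nat.cast_nonneg (α := ℝ) d)
    linarith
  have h5 : exp 3.4 ≤ 30 := by
    have e1 := exp_one_lt_d9
    have e2 : exp (3.4 : ℝ) ^ 5 = exp 1 ^ 17 := by
      rw [← exp_nat_mul, ← exp_nat_mul]; norm_num
    have e3 : exp (3.4 : ℝ) ^ 5 ≤ 30 ^ 5 := by
      rw [e2]
      calc exp 1 ^ 17 ≤ (2.7182818286 : ℝ) ^ 17 := pow_le_pow_left₀ (exp_pos 1).le e1.le 17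
        _ ≤ 30 ^ 5 := by norm_num
    exact le_of_pow_le_pow_left₀ (by norm_num) (by norm_num) e3
  exact ((log_le_iff_le_exp (pow_pos hq d)).mp h4).trans h5

/-- The univariate bound. -/
theorem univ_bound (P : ℝ[X]) (d : ℕ) (h2 : 2 ≤ d) (hP : P.natDegree ≤ d)
    (hb : ∀ t : ℝ, |t| ≤ 1 → |P.eval t| ≤ 1)
    (hd : ∀ t : ℝ, |t| ≤ 1 → (1 - t ^ 2) * (derivative P).eval t ≤ d * (1 - P.eval t ^ 2)) :
    P.coeff 1 ≤ 24 / 25 * d := by
  obtain ⟨m, hm⟩ : ∃ m, d = 2 * m + 1 ∨ d = 2 * m + 2 := ⟨(d - 1) / 2, by omega⟩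
  have hP' : P.natDegree ≤ 2 * m + 2 := by omega
  set s := sin (π / (2 * (2 * m + 1))) with hs
  have hD : (0 : ℝ) < 2 * m + 1 := by positivity
  have hs0 : 0 < s := by
    refine sin_pos_of_pos_of_lt_pi (by positivity) ?_
    rw [div_lt_iff₀ (by positivity)]
    nlinarith [pi_pos, (Nat.cast_nonneg m : (0 : ℝ) ≤ m)]
  have hsle : s * (2 * m + 1) ≤ 1.5708 := by
    have h1 : s ≤ π / (2 * (2 * m + 1)) := sin_le (by positivity)
    rw [le_div_iff₀ (by positivity)] at h1
    linarith [pi_lt_d4]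
  by_cases hsmall : d = 2 * m + 2 ∧ m ≤ 11
  · have h1 := bern_gain P m hP' hb le_rfl (by
      have a := abs_le.mp (hb s (abs_sin_le_one _))
      have b := abs_le.mp (hb (-s) (by rw [abs_neg]; exact abs_sin_le_one _))
      linarith)
    have h3 : (m : ℝ) ≤ 11 := by exact_mod_cast hsmall.2
    rw [hsmall.1]
    push_cast
    simp only [sub_self, zero_div, sub_zero] at h1
    linarith
  have hm1 : 1 ≤ m := by omega
  have hm1' : (1 : ℝ) ≤ m := by exact_mod_cast hm1
  have hs1 : s < 1 := by nlinarith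
  have hE : ((1 + s) / (1 - s)) ^ d ≤ 30 := by
    by_cases h3 : d = 3
    · have hm' : m = 1 := by omega
      have : s = 1 / 2 := by
        rw [hs, hm', ← sin_pi_div_six]; norm_num
      rw [this, h3]; norm_num
    by_cases h5 : d = 5
    · have hm' : m = 2 := by omega
      rw [hm'] at hsle
      have h6 : s ≤ 0.3142 := by push_cast at hsle; linarith
      have h7 : (1 + s) / (1 - s) ≤ 1.92 := by rw [div_le_iff₀ (by linarith)]; linarith
      rw [h5]
      calc ((1 + s) / (1 - s)) ^ 5 ≤ (1.92 : ℝ) ^ 5 :=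
            pow_le_pow_left₀ (div_pos (by linarith) (by linarith)).le h7 5
        _ ≤ 30 := by norm_num
    refine pow_le_thirty hs0.le hs1 ?_
    rcases hm with hm | hm
    · have h6 : (3 : ℝ) ≤ m := by exact_mod_cast (by omega : 3 ≤ m)
      have h7 : s ≤ 0.2244 := by nlinarith
      rw [hm]; push_cast; nlinarith
    · have h6 : (12 : ℝ) ≤ m := by exact_mod_cast (by omega : 12 ≤ m)
      have h7 : s ≤ 0.063 := by nlinarith
      rw [hm]; push_cast; nlinarith
  have h1 := bern_gain P m hP' hb (τ := 1 - 2 / (30 + 1)) (by norm_num)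
    (logit P d hb hd hs0.le hs1 hE)
  have h3 : (2 * m + 1) / 25 ≤ (1 - (1 - 2 / (30 + 1))) / s := by
    rw [le_div_iff₀ hs0]
    linarith
  have h4 : (2 * m + 1 : ℝ) ≤ d := by
    rcases hm with hm | hm <;> rw [hm] <;> push_cast <;> linarith
  linarith

end Vale.Agent.N047
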