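import Vale.Agent.P047.H594.Main
import Vale.Agent.N047.Cheb

/-! # P047: biased Fourier expansion and the upper bound -/

open Finset Polynomial

namespace Vale.Agent.N047

open Vale.Agent.P047 Vale.Agent.P047.H594

variable {n : ℕ}

/-- The product weight with mean `t` in each coordinate. -/
noncomputable def wt (t : ℝ) (x : Cube n) : ℝ := ∏ i, (1 + t * ((x i : ℤ) : ℝ)) / 2

/-- The centred characters. -/
def phi (t : ℝ) (T : Finset (Fin n)) (x : Cube n) : ℝ := ∏ i ∈ T, (((x i : ℤ) : ℝ) - t)

theorem wt_nonneg {t : ℝ} (ht : |t| ≤ 1) (x : Cube n) : 0 ≤ wt t x := by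
  refine prod_nonneg fun i _ => ?_
  have h := abs_le.mp ht
  rcases Int.units_eq_one_or (x i) with h1 | h1 <;> rw [h1] <;> simp <;> linarith [h.1, h.2]

theorem orth (t : ℝ) (S T : Finset (Fin n)) :
    ∑ x : Cube n, wt t x * (phi t S x * phi t T x) = if S = T then (1 - t ^ 2) ^ S.card else 0 := by
  have h1 : ∀ x : Cube n, wt t x * (phi t S x * phi t T x) = ∏ i, ((1 + t * ((x i : ℤ) : ℝ)) / 2 *
      ((if i ∈ S then ((x i : ℤ) : ℝ) - t else 1) * (if i ∈ T then ((x i : ℤ) : ℝ) - t else 1))) := by
    intro x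
    rw [prod_mul_distrib, prod_mul_distrib, prod_ite_mem, prod_ite_mem, univ_inter, univ_inter]
    rfl
  simp only [h1]
  rw [sum_prod_fun (fun (i : Fin n) (u : ℤˣ) => (1 + t * ((u : ℤ) : ℝ)) / 2 *
      ((if i ∈ S then ((u : ℤ) : ℝ) - t else 1) * (if i ∈ T then ((u : ℤ) : ℝ) - t else 1)))]
  simp only [sign_units_sum]
  split_ifs with h
  · subst h
    rw [← prod_const, ← univ_inter S, ← prod_ite_mem, univ_inter]
    refine prod_congr rfl fun i _ => ?_
    split_ifs <;> simp <;> ring
  · obtain ⟨i, hi⟩ : ∃ i, ¬ (i ∈ S ↔ i ∈ T) := by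
      by_contra hc
      push Not at hc
      exact h (Finset.ext hc)
    refine prod_eq_zero (mem_univ i) ?_
    by_cases h1 : i ∈ S <;> by_cases h2 : i ∈ T
    · exact absurd (iff_of_true h1 h2) hi
    · simp [h1, h2]; ring
    · simp [h1, h2]; ring
    · exact absurd (iff_of_false h1 h2) hi

theorem pars (t : ℝ) (a b : Finset (Fin n) → ℝ) :
    ∑ x : Cube n, wt t x * ((∑ S, a S * phi t S x) * ∑ T, b T * phi t T x)
      = ∑ S, a S * b S * (1 - t ^ 2) ^ S.card := by
  have h1 : ∀ x : Cube n, wt t x * ((∑ S, a S * phi t S x) * ∑ T, b T * phi t T x)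
      = ∑ S, ∑ T, a S * b T * (wt t x * (phi t S x * phi t T x)) := by
    intro x
    rw [sum_mul_sum, mul_sum]
    refine sum_congr rfl fun S _ => ?_
    rw [mul_sum]
    exact sum_congr rfl fun T _ => by ring
  simp only [h1]
  rw [sum_comm]
  refine sum_congr rfl fun S _ => ?_
  rw [sum_comm]
  simp only [← mul_sum, orth]
  simp only [mul_ite, mul_zero, sum_ite_eq, mem_univ, if_true]

/-- The coefficients in the centred basis. -/
noncomputable def co (c : Finset (Fin n) → ℝ) (t : ℝ) (T : Finset (Fin n)) : ℝ :=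
  ∑ S, if T ⊆ S then c S * t ^ (S \ T).card else 0

theorem expand (c : Finset (Fin n) → ℝ) (t : ℝ) (x : Cube n) :
    ∑ S, c S * chi S x = ∑ T, co c t T * phi t T x := by
  have h1 : ∀ S : Finset (Fin n), chi S x
      = ∑ T, if T ⊆ S then t ^ (S \ T).card * phi t T x else 0 := by
    intro S
    have e : chi S x = ∏ i ∈ S, ((((x i : ℤ) : ℝ) - t) + t) := by
      unfold chi
      exact prod_congr rfl fun i _ => by ring
    rw [e, prod_add, ← sum_filter]
    have e2 : univ.filter (fun T => T ⊆ S) = S.powerset := by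
      ext T; simp
    rw [e2]
    refine sum_congr rfl fun T _ => ?_
    rw [prod_const, mul_comm]
    rfl
  simp only [h1, co, mul_sum, sum_mul]
  rw [sum_comm]
  refine sum_congr rfl fun T _ => sum_congr rfl fun S _ => ?_
  split_ifs <;> ring

theorem phi_diff (t : ℝ) (T : Finset (Fin n)) (i : Fin n) (x : Cube n) :
    (((x i : ℤ) : ℝ) - t) * ((phi t T (Function.update x i 1)
      - phi t T (Function.update x i (-1))) / 2) = if i ∈ T then phi t T x else 0 := by
  unfold phi
  split_ifs with h
  · have h3 : ∀ u : ℤˣ, ∏ j ∈ T.erase i, ((((Function.update x i u j : ℤˣ) : ℤ) : ℝ) - t) =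
        ∏ j ∈ T.erase i, (((x j : ℤ) : ℝ) - t) := fun u =>
      prod_congr rfl fun j hj => by rw [Function.update_of_ne (ne_of_mem_erase hj)]
    rw [← mul_prod_erase _ _ h, ← mul_prod_erase _ _ h, ← mul_prod_erase _ _ h, h3, h3,
      Function.update_self, Function.update_self]
    simp only [Units.val_one, Int.cast_one, Units.val_neg, Int.cast_neg]
    ring
  · have h3 : ∀ u : ℤˣ, ∏ j ∈ T, ((((Function.update x i u j : ℤˣ) : ℤ) : ℝ) - t) =
        ∏ j ∈ T, (((x j : ℤ) : ℝ) - t) := fun u =>
      prod_congr rfl fun j hj => by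
        rw [Function.update_of_ne]
        rintro rfl
        exact h hj
    rw [h3, h3]
    simp

section

variable {c : Finset (Fin n) → ℝ} (hB : ∀ x : Cube n, ∑ S, c S * chi S x = 1 ∨
  ∑ S, c S * chi S x = -1) {t : ℝ}

include hB

theorem total : ∑ T, co c t T * co c t T * (1 - t ^ 2) ^ T.card = 1 := by
  rw [← pars]
  have h0 := orth (n := n) t ∅ ∅
  simp only [phi, prod_empty, mul_one, if_true, card_empty, pow_zero] at h0
  rw [← h0]
  refine sum_congr rfl fun x _ => ?_
  rw [← expand]
  rcases hB x with h | h <;> rw [h] <;> ring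

theorem single_le (ht : |t| ≤ 1) (i : Fin n) : (1 - t ^ 2) * co c t {i}
    ≤ ∑ T, if i ∈ T then co c t T * co c t T * (1 - t ^ 2) ^ T.card else 0 := by
  set D : Cube n → ℝ := fun x => ((∑ S, c S * chi S (Function.update x i 1))
    - ∑ S, c S * chi S (Function.update x i (-1))) / 2 with hD
  have hL : ∀ x : Cube n, ∑ T, (if i ∈ T then co c t T else 0) * phi t T x
      = (((x i : ℤ) : ℝ) - t) * D x := by
    intro x
    simp only [hD]
    rw [expand c t, expand c t, ← sum_sub_distrib, sum_div, mul_sum]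
    refine sum_congr rfl fun T _ => ?_
    have := phi_diff t T i x
    split_ifs at this ⊢ with h
    · linear_combination (-co c t T) * this
    · linear_combination (-co c t T) * this
  have h1 := pars t (fun T => if i ∈ T then co c t T else 0) (fun T => if T = {i} then 1 else 0)
  have h2 := pars t (fun T => if i ∈ T then co c t T else 0)
    (fun T => if i ∈ T then co c t T else 0)
  simp only [hL] at h1 h2
  simp only [ite_mul, one_mul, zero_mul, mul_ite, mul_one, mul_zero, sum_ite_eq', mem_univ,
    if_true, mem_singleton, card_singleton, pow_one, phi, prod_singleton] at h1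
  have e : (∑ T, if i ∈ T then co c t T * co c t T * (1 - t ^ 2) ^ T.card else 0)
      = ∑ S, (if i ∈ S then co c t S else 0) * (if i ∈ S then co c t S else 0)
        * (1 - t ^ 2) ^ S.card := sum_congr rfl fun T _ => by split_ifs <;> simp
  rw [e, ← h2, mul_comm, ← h1]
  refine sum_le_sum fun x _ => mul_le_mul_of_nonneg_left ?_ (wt_nonneg ht x)
  have hDD : D x ≤ D x * D x := by
    simp only [hD]
    rcases hB (Function.update x i 1) with h | h <;>
      rcases hB (Function.update x i (-1)) with h' | h' <;> rw [h, h'] <;> norm_num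
  nlinarith [sq_nonneg (((x i : ℤ) : ℝ) - t)]

theorem poincare {d : ℕ} (hc : ∀ S : Finset (Fin n), d < S.card → c S = 0) (ht : |t| ≤ 1) :
    (1 - t ^ 2) * ∑ i, co c t {i} ≤ d * (1 - co c t ∅ ^ 2) := by
  have hσ : 0 ≤ 1 - t ^ 2 := by
    have := abs_le.mp ht
    nlinarith
  rw [mul_sum]
  refine (sum_le_sum fun i _ => single_le hB ht i).trans ?_
  rw [sum_comm]
  have h1 := total hB (t := t)
  rw [← add_sum_erase _ _ (mem_univ ∅)] at h1 ⊢
  simp only [card_empty, pow_zero, mul_one, notMem_empty, if_false, sum_const_zero,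
    zero_add] at h1 ⊢
  rw [show 1 - co c t ∅ ^ 2 = ∑ T ∈ univ.erase ∅, co c t T * co c t T * (1 - t ^ 2) ^ T.card by
    linarith, mul_sum]
  refine sum_le_sum fun T _ => ?_
  rw [sum_ite_mem, univ_inter, sum_const, nsmul_eq_mul]
  by_cases hT : T.card ≤ d
  · exact mul_le_mul_of_nonneg_right (by exact_mod_cast hT)
      (mul_nonneg (mul_self_nonneg _) (pow_nonneg hσ _))
  · have : co c t T = 0 := by
      refine sum_eq_zero fun S _ => ?_
      split_ifs with h
      · rw [hc S (lt_of_lt_of_le (not_le.mp hT) (card_le_card h)), zero_mul]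
      · rfl
    rw [this]
    simp

theorem abs_co_le (ht : |t| ≤ 1) : |co c t ∅| ≤ 1 := by
  have hσ : 0 ≤ 1 - t ^ 2 := by
    have := abs_le.mp ht
    nlinarith
  have h1 := total hB (t := t)
  have h2 := single_le_sum (f := fun T : Finset (Fin n) =>
    co c t T * co c t T * (1 - t ^ 2) ^ T.card)
    (fun T _ => mul_nonneg (mul_self_nonneg _) (pow_nonneg hσ _)) (mem_univ ∅)
  simp only [card_empty, pow_zero, mul_one] at h2
  rw [h1] at h2
  exact abs_le_one_iff_mul_self_le_one.mpr h2

theorem coeff_bound {d : ℕ} (h2 : 2 ≤ d) (hc : ∀ S : Finset (Fin n), d < S.card → c S = 0) :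
    ∑ i, c {i} ≤ 24 / 25 * d := by
  set P : ℝ[X] := ∑ S : Finset (Fin n), C (c S) * X ^ S.card with hP
  have e0 : ∀ t : ℝ, P.eval t = co c t ∅ := by
    intro t
    simp [hP, co, eval_finsetSum]
  have e1 : ∀ t : ℝ, (derivative P).eval t = ∑ i, co c t {i} := by
    intro t
    simp only [hP, co, derivative_sum, derivative_C_mul, derivative_X_pow, eval_finsetSum,
      eval_mul, eval_C, eval_pow, eval_X, singleton_subset_iff]
    rw [sum_comm]
    refine sum_congr rfl fun S _ => ?_
    rw [sum_ite_mem, univ_inter, sum_congr rfl (g := fun _ => c S * t ^ (S.card - 1))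
      (fun i hi => by rw [sdiff_singleton_eq_erase, card_erase_of_mem hi]), sum_const,
      nsmul_eq_mul]
    ring
  have e2 : P.coeff 1 = ∑ i, c {i} := by
    have h1 : P.coeff 1 = (derivative P).eval 0 := by
      rw [← coeff_zero_eq_eval_zero, coeff_derivative]; simp
    rw [h1, e1]
    refine sum_congr rfl fun i _ => ?_
    unfold co
    rw [sum_eq_single {i}]
    · simp
    · intro S _ hS
      split_ifs with h
      · have : (S \ {i}).card ≠ 0 := by
          rw [card_ne_zero, sdiff_nonempty]
          exact fun h' => hS (Subset.antisymm h' h)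
        rw [zero_pow this, mul_zero]
      · rfl
    · simp
  rw [← e2]
  refine univ_bound P d h2 ?_ (fun t ht => ?_) (fun t ht => ?_)
  · refine natDegree_sum_le_of_forall_le _ _ fun S _ => ?_
    by_cases h : S.card ≤ d
    · exact (natDegree_C_mul_X_pow_le _ _).trans h
    · rw [hc S (not_le.mp h)]; simp
  · rw [e0]; exact abs_co_le hB ht
  · rw [e0, e1]; exact poincare hB hc ht

end

/-- The upper bound, with absolute values. -/
theorem abs_sum_le {f : Cube n → ℝ} (hf : IsBoolean f) {d : ℕ} (h2 : 2 ≤ d) (hd : degree f ≤ d) :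
    ∑ i, |fourierCoeff f {i}| ≤ 24 / 25 * d := by
  set e : Cube n := fun i => if 0 ≤ fourierCoeff f {i} then 1 else -1 with he
  have h := coeff_bound (c := fun S => fourierCoeff f S * chi S e) (fun x => by
    have h1 : ∑ S, fourierCoeff f S * chi S e * chi S x = f (e * x) := by
      rw [← inversion f (e * x)]
      refine sum_congr rfl fun S _ => ?_
      unfold chi
      rw [mul_assoc, ← prod_mul_distrib]
      simp
    rw [h1]
    exact hf _) h2 (fun S hS => by rw [fourierCoeff_eq_zero_of_degree hd hS, zero_mul])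
  refine le_trans (le_of_eq (sum_congr rfl fun i _ => ?_)) h
  simp only [chi, prod_singleton, he]
  split_ifs with h0
  · simp [abs_of_nonneg h0]
  · simp [abs_of_neg (not_le.mp h0)]

end Vale.Agent.N047
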